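import Vale.Agent.P196.H783.Asm
import Vale.Agent.P196.FIN.Glue
import Vale.Agent.P196.H697.Ext
import Vale.Agent.P196.Tile.Inst

/-!
# Assembly of the final statements from Theorem P, Theorem S and amenability
-/

namespace Vale.Agent.P196.H783

open Vale.Agent.P196.S0 (grp isSimple infinite_grp)
open Vale.Agent.P196.Wang

variable {ι : Type} [Fintype ι] [DecidableEq ι]

/-- The final statement from Theorem S and amenability. -/
theorem final_of (h12 : 12 ≤ Fintype.card ι)
    (hS : ∀ (π : H104 ι →* grp ι LS), Function.Surjective π →
      π.ker ≤ Subgroup.center (H104 ι) → commutator (H104 ι) = ⊤ → (π.ker).FG)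
    (ham : IsAmenable (grp ι LS)) :
    ∃ (G : Type) (_ : Group G), Infinite G ∧ Group.IsFinitelyPresented G ∧ IsSimpleGroup G ∧
      IsAmenable G :=
  FIN.final (by omega) localSets (FIN.fp_of_P_S (H104_perfect h12) (theoremP h12) hS) ham

/-- Transport of amenability along an isomorphism. -/
theorem isAmenable_equiv {G G' : Type*} [Group G] [Group G'] (e : G ≃* G')
    (h : IsAmenable G') : IsAmenable G := by
  classical
  intro K ε hε
  obtain ⟨D, hD, hD'⟩ := h (K.image e) ε hε
  refine ⟨D.image e.symm, hD.image _, fun g hg => ?_⟩
  have h1 := hD' (e g) (Finset.mem_image_of_mem _ hg)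
  have h2 : (symmDiff ((D.image e.symm).image fun x => g * x) (D.image e.symm)).card =
      (symmDiff (D.image fun x => e g * x) D).card := by
    rw [← Finset.card_image_of_injective (symmDiff (D.image fun x => e g * x) D)
      e.symm.injective]
    congr 1
    rw [Finset.image_symmDiff _ _ e.symm.injective, Finset.image_image, Finset.image_image]
    congr 2
    funext x
    simp
  rw [Finset.card_image_of_injective _ e.symm.injective]
  calc ((symmDiff ((D.image e.symm).image fun x => g * x) (D.image e.symm)).card : ℝ)
      = ((symmDiff (D.image fun x => e g * x) D).card : ℝ) := by exact_mod_cast h2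
    _ < _ := h1

/-- The intermediate statement: a finitely presented perfect amenable group which is simple and
infinite modulo its centre. -/
theorem intermediate_of (h12 : 12 ≤ Fintype.card ι) (ham : IsAmenable (grp ι LS)) :
    ∃ (H : Type) (_ : Group H), Group.IsFinitelyPresented H ∧ IsAmenable H ∧
      commutator H = ⊤ ∧ Infinite (H ⧸ Subgroup.center H) ∧
      IsSimpleGroup (H ⧸ Subgroup.center H) := by
  refine ⟨H104 ι, inferInstance, inferInstance, ?_, H104_perfect h12, ?_, ?_⟩
  · exact H697.isAmenable_of_central (Subgroup.center (H104 ι)) le_rfl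
      (isAmenable_equiv (theoremP h12) ham)
  · have hne : Nonempty ι := Fintype.card_pos_iff.1 (by omega)
    have : Infinite (grp ι LS) := S0.infinite_grp (ι := ι) (LS := LS) (by omega)
    exact (theoremP h12).toEquiv.infinite_iff.2 this
  · have : IsSimpleGroup (grp ι LS) := isSimple (by omega) localSets
    have hn : Nontrivial (H104 ι ⧸ Subgroup.center (H104 ι)) :=
      (theoremP h12).toEquiv.nontrivial
    exact (theoremP h12).isSimpleGroup

end Vale.Agent.P196.H783
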