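import Vale.Agent.P196.H783.Real
import Mathlib.GroupTheory.SpecificGroups.Alternating

/-!
# [BR3]: from events to homomorphisms indexed by local sets
-/

namespace Vale.Agent.P196.H783

open Vale.Agent.P196.E3

/-- What the event calculus delivers: every event gives a homomorphism of the alternating group of
the floors, and there are shifts. -/
structure EvData (ι G : Type*) [Fintype ι] [DecidableEq ι] [Group G] (B : Type*) [CPBA B]
    (D : Type*) where
  hom : B → alternatingGroup ι →* G
  /-- value of a displacement vector on a floor -/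
  at' : D → ι → Z2
  d : D → G
  sh : Z2 → B → B
  hom_split : ∀ a b, CPBA.compat a b → ∀ s,
    hom a s = hom (CPBA.inf a b) s * hom (CPBA.inf a (CPBA.compl b)) s
  hom_zero : ∀ s, hom CPBA.zero s = 1
  hom_orth : ∀ a b, CPBA.compat a b → CPBA.inf a b = CPBA.zero → ∀ s r,
    Commute (hom a s) (hom b r)
  sh_one : ∀ v, sh v CPBA.one = CPBA.one
  sh_compl : ∀ v a, sh v (CPBA.compl a) = CPBA.compl (sh v a)
  sh_inf : ∀ v a b, CPBA.compat a b → sh v (CPBA.inf a b) = CPBA.inf (sh v a) (sh v b)
  hom_sh : ∀ w v a (s : alternatingGroup ι), (∀ i ∈ (s : Equiv.Perm ι).support, at' w i = v) →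
    d w * hom a s * (d w)⁻¹ = hom (sh v a) s

variable {ι G : Type*} [Fintype ι] [DecidableEq ι] [Group G] {B : Type*} [CPBA B] {D : Type*}
variable {T C : Type*} [Fintype T]

/-- All hypotheses on the site events. -/
structure SiteData (𝓔 : EvData ι G B D) (east west north south : T → C) (t : Z2 → T)
    (E : Z2 → T → B) : Prop where
  compat : ∀ v s w t, CPBA.compat (E v s) (E w t)
  ax : ∀ f g, Ax east west north south f g → f.val (ofCPBA B) E = g.val (ofCPBA B) E
  lang : ∀ P : Z2 → T, Valid east west north south P → ∀ W : Finset Z2,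
      ∃ u, ∀ z ∈ W, P z = t (u + z)
  sh_E : ∀ v u τ, 𝓔.sh v (E u τ) = E (v + u) τ

namespace SiteData

variable {𝓔 : EvData ι G B D} {east west north south : T → C} {t : Z2 → T}
  {E : Z2 → T → B} (h : SiteData 𝓔 east west north south t E)

include h

theorem val_eq {f g : Fm Z2 T} (hfg : real t f = real t g) :
    f.val (ofCPBA B) E = g.val (ofCPBA B) E :=
  val_eq_of_real E h.compat h.ax t h.lang f g hfg

theorem compat_val (f g : Fm Z2 T) :
    CPBA.compat (f.val (ofCPBA B) E) (g.val (ofCPBA B) E) :=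
  Fm.compat_val (ofCPBA B) E h.compat f g

theorem val_map (v : Z2) (f : Fm Z2 T) :
    (f.map (fun u => v + u)).val (ofCPBA B) E = 𝓔.sh v (f.val (ofCPBA B) E) := by
  induction f with
  | atom u τ => exact (h.sh_E v u τ).symm
  | top => exact (𝓔.sh_one v).symm
  | neg f ih =>
    show CPBA.compl _ = 𝓔.sh v (CPBA.compl _)
    rw [𝓔.sh_compl]; exact congrArg _ ih
  | conj f g ih1 ih2 =>
    show CPBA.inf _ _ = 𝓔.sh v (CPBA.inf _ _)
    rw [𝓔.sh_inf v _ _ (h.compat_val f g)]
    exact congrArg₂ _ ih1 ih2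

omit h in
open Classical in
/-- The homomorphism attached to a local set. -/
noncomputable def e (𝓔 : EvData ι G B D) (t : Z2 → T) (E : Z2 → T → B) (X : Set Z2) :
    alternatingGroup ι →* G :=
  if h : ∃ f : Fm Z2 T, X = real t f then 𝓔.hom (h.choose.val (ofCPBA B) E) else 1

theorem e_real (f : Fm Z2 T) : e 𝓔 t E (real t f) = 𝓔.hom (f.val (ofCPBA B) E) := by
  have hex : ∃ g : Fm Z2 T, real t f = real t g := ⟨f, rfl⟩
  rw [e, dif_pos hex, h.val_eq hex.choose_spec.symm]

theorem e_commute (f g : Fm Z2 T) (hfg : real t f ∩ real t g = ∅) (a b : alternatingGroup ι) :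
    Commute (e 𝓔 t E (real t f) a) (e 𝓔 t E (real t g) b) := by
  rw [h.e_real, h.e_real]
  apply 𝓔.hom_orth _ _ (h.compat_val f g)
  have : (Fm.conj f g).val (ofCPBA B) E = (Fm.neg .top).val (ofCPBA B) E := by
    apply h.val_eq
    rw [real_conj, hfg, real_neg, real_top, Set.compl_univ]
  exact this

theorem e_union (f g : Fm Z2 T) (hfg : real t f ∩ real t g = ∅) (a : alternatingGroup ι) :
    e 𝓔 t E (real t f ∪ real t g) a = e 𝓔 t E (real t f) a * e 𝓔 t E (real t g) a := by
  set k : Fm Z2 T := .neg (.conj (.neg f) (.neg g)) with hk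
  have h1 : real t k = real t f ∪ real t g := by
    rw [hk, real_neg, real_conj, real_neg, real_neg, Set.compl_inter, compl_compl, compl_compl]
  rw [← h1, h.e_real, h.e_real, h.e_real, 𝓔.hom_split _ _ (h.compat_val k f)]
  have h2 : CPBA.inf (k.val (ofCPBA B) E) (f.val (ofCPBA B) E) = f.val (ofCPBA B) E := by
    have : (Fm.conj k f).val (ofCPBA B) E = f.val (ofCPBA B) E := by
      apply h.val_eq
      rw [real_conj, h1]
      exact Set.inter_eq_right.2 Set.subset_union_left
    exact this
  have h3 : CPBA.inf (k.val (ofCPBA B) E) (CPBA.compl (f.val (ofCPBA B) E)) =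
      g.val (ofCPBA B) E := by
    have : (Fm.conj k (.neg f)).val (ofCPBA B) E = g.val (ofCPBA B) E := by
      apply h.val_eq
      rw [real_conj, h1, real_neg]
      ext u
      have : ¬ (u ∈ real t f ∧ u ∈ real t g) := by
        intro hu
        have : u ∈ real t f ∩ real t g := hu
        rw [hfg] at this
        exact this
      simp only [Set.mem_inter_iff, Set.mem_union, Set.mem_compl_iff]
      tauto
    exact this
  rw [h2, h3]

theorem e_conj (f : Fm Z2 T) (w : D) (v : Z2) (a : alternatingGroup ι)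
    (hw : ∀ i ∈ (a : Equiv.Perm ι).support, 𝓔.at' w i = v) :
    𝓔.d w * e 𝓔 t E (real t f) a * (𝓔.d w)⁻¹ = e 𝓔 t E {u | u - v ∈ real t f} a := by
  rw [h.e_real, 𝓔.hom_sh w v _ a hw, ← h.val_map, ← h.e_real, real_map]

theorem e_univ (a : alternatingGroup ι) : e 𝓔 t E Set.univ a = 𝓔.hom CPBA.one a := by
  rw [← real_top t, h.e_real]
  rfl

theorem e_site (v : Z2) (τ : T) : e 𝓔 t E {u | t (u - v) = τ} = 𝓔.hom (E v τ) := by
  have : {u | t (u - v) = τ} = real t (.atom v τ) := rfl
  rw [this, h.e_real]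
  rfl

end SiteData

end Vale.Agent.P196.H783
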