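import Vale.Agent.P196.H783.Rigid
import Vale.Agent.P196.H783.Bridge
import Vale.Agent.P196.H83.Hom
import Vale.Agent.P196.H83.Shift
import Vale.Agent.P196.H881.HInst
import Vale.Agent.P196.P3.Main
import Vale.Agent.P196.S0.Simple

/-!
# [P-ASM]: `H / center H` is the group of the tiling
-/

namespace Vale.Agent.P196.H783

set_option linter.unusedSectionVars false

open Vale.Agent.P196.H881 Vale.Agent.P196.Ev Vale.Agent.P196.Wang Vale.Agent.P196.E3
open Equiv Equiv.Perm
open Vale.Agent.P196.S0 (eP dP grp ePHom ePHom_apply eP_union dP_apply)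

variable {ι : Type*} [Fintype ι] [DecidableEq ι] (h12 : 12 ≤ Fintype.card ι)

open Classical in
/-- displacements in the quotient -/
noncomputable def dQ (w : ι → Z2) : Q104 ι :=
  if h : ∑ i, w i = 0 then
    mkQ Tile.east Tile.west Tile.north Tile.south
      (d Tile.east Tile.west Tile.north Tile.south ⟨w, mem_L.2 h⟩)
  else 1

theorem dQ_of {w : ι → Z2} (h : ∑ i, w i = 0) :
    dQ w = mkQ Tile.east Tile.west Tile.north Tile.south
      (d Tile.east Tile.west Tile.north Tile.south ⟨w, mem_L.2 h⟩) := dif_pos h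

theorem sum_zero_add {w w' : ι → Z2} (h : ∑ i, w i = 0) (h' : ∑ i, w' i = 0) :
    ∑ i, (w + w') i = 0 := by
  simp [Finset.sum_add_distrib, h, h']

/-- The shift structure. -/
noncomputable def shifts : Shifts (flo104 (ι := ι) h12) Z2 where
  d := dQ
  d_add w w' h h' := by
    rw [dQ_of h, dQ_of h', dQ_of (sum_zero_add h h'), ← map_mul, ← d_add]
    rfl
  d_supp w h I hI := by
    rw [dQ_of h]
    exact ⟨_, d_mem_SH hI, rfl⟩
  d_conj s hs w h := by
    have h' : ∑ i, (fun i => w (s⁻¹ i)) i = 0 := by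
      rw [← h]; exact Equiv.sum_comp s⁻¹ w
    rw [dQ_of h, dQ_of h']
    show cQ _ _ _ _ s * _ * (cQ _ _ _ _ s)⁻¹ = _
    rw [cQ_of_mem _ _ _ _ hs, cHom_apply, ← map_inv, ← map_mul, ← map_mul, c_d]
    rfl

/-- The event data of the centreless group. -/
noncomputable def evData : EvData ι (Q104 ι) (Event (flo104 (ι := ι) h12))
    {w : ι → Z2 // ∑ i, w i = 0} where
  hom := Event.toHom
  at' w := w.1
  d w := dQ w.1
  sh v X := X.shift (shifts h12) v
  hom_split := by
    rintro a b ⟨T, T', h⟩ s
    show _ = (a.meet b).toHom s * (a.meet b.compl).toHom s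
    rw [meet_eq h, meet_eq h.compl]
    exact toHom_splits h s
  hom_zero s := by
    have : (CPBA.zero : Event (flo104 (ι := ι) h12)) = Event.zero := by
      show Event.const.compl = _
      ext σ hσ
      rw [compl_apply _ hσ, const_apply hσ, Ev.zero_apply]; group
    rw [this, toHom_zero]
  hom_orth := by
    rintro a b ⟨T, T', h⟩ h0 s r
    have hz : (CPBA.zero : Event (flo104 (ι := ι) h12)) = Event.zero := by
      show Event.const.compl = _
      ext σ hσ
      rw [compl_apply _ hσ, const_apply hσ, Ev.zero_apply]; group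
    have h1 : a.meet b = CPBA.zero := h0
    rw [meet_eq h, hz] at h1
    subst h1
    have h2 : a = T' := by
      ext σ hσ
      rw [h.eq σ hσ, Ev.zero_apply, one_mul]
    rw [h2]
    exact toHom_comm h.perpK s r
  sh_one v := shift_const (shifts h12) v
  sh_compl v a := shift_compl (shifts h12) v a
  sh_inf v a b _ := shift_meet (shifts h12) v a b
  hom_sh w v a s hs := toHom_shift (shifts h12) a w.2 s hs

/-- tile events -/
noncomputable abbrev tE (v : Z2) (τ : Tile) : Event (flo104 (ι := ι) h12) :=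
  tileEv (E := Tile.east) (W := Tile.west) (N := Tile.north) (S := Tile.south) h12 v τ

theorem shift_tile (v u : Z2) (τ : Tile) :
    (tE (ι := ι) h12 u τ).shift (shifts h12) v = tE h12 (v + u) τ := by
  ext σ hσ
  obtain ⟨w, hw, h1, -, -⟩ := exists_vec_two (flo104 (ι := ι) h12) v hσ hσ
  rw [shift_apply (shifts h12) v _ hσ hw h1]
  show dQ w * siteEv _ _ _ _ h12 u {τ} σ * (dQ w)⁻¹ = siteEv _ _ _ _ h12 (v + u) {τ} σ
  have hs : supp (ind {τ} (⟨σ, hσ.mem_alternatingGroup⟩ : alternatingGroup ι)) ⊆ σ.support :=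
    supp_ind_le _ _
  rw [siteEv_apply _ _ _ hσ, siteEv_apply _ _ _ hσ, dQ_of hw, ← map_inv, ← map_mul, ← map_mul,
    d_site (v := v) (u := u) (w := ⟨w, mem_L.2 hw⟩) ?_ (fun i hi => h1 i (hs hi))]
  left
  apply card_ne_univ h12
  have h2 := Finset.card_le_card hs
  have h3 := three_card hσ
  omega

/-- All hypotheses of the bridge hold. -/
theorem siteData : SiteData (evData (ι := ι) h12) Tile.east Tile.west Tile.north Tile.south
    (t : Z2 → Tile) (tE h12) where
  compat v s w t := tileEv_compat h12 v s w t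
  ax f g h := tileEv_ax h12 f g h
  lang := lang104
  sh_E v u τ := shift_tile h12 v u τ

/-- every local set is realised by a formula -/
theorem exists_fm {X : Set Z2} (hX : X ∈ LS) : ∃ f : Fm Z2 Tile, X = real t f := by
  obtain ⟨R, hR⟩ := hX
  refine exists_real t X ((Finset.Icc (-(R : ℤ)) R) ×ˢ (Finset.Icc (-(R : ℤ)) R)) ?_
  intro u u' h hu
  refine (hR u u' ?_).1 hu
  intro a b ha hb
  apply h (a, b)
  rw [Finset.mem_product, Finset.mem_Icc, Finset.mem_Icc]
  exact ⟨⟨(abs_le.1 ha).1, (abs_le.1 ha).2⟩, ⟨(abs_le.1 hb).1, (abs_le.1 hb).2⟩⟩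

theorem tile_mem_LS (v : Z2) (τ : Tile) : {u | t (u - v) = τ} ∈ LS := by
  have := LS_tile (-v) {τ}
  simpa [sub_eq_add_neg] using this

/-- realisations of formulas are local -/
theorem real_mem (f : Fm Z2 Tile) : real t f ∈ LS := by
  induction f with
  | atom v τ => exact tile_mem_LS v τ
  | top => rw [real_top]; exact LS_univ
  | neg f ih => rw [real_neg]; exact LS_compl ih
  | conj f g ih1 ih2 => rw [real_conj]; exact LS_inter ih1 ih2

/-- `eP E` on even permutations -/
noncomputable def eA (E : Set Z2) : alternatingGroup ι →* Perm (Z2 × ι) :=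
  (ePHom E).comp (alternatingGroup ι).subtype

theorem eA_apply (E : Set Z2) (a : alternatingGroup ι) : eA E a = eP E (a : Perm ι) := rfl

theorem four_le (h : 12 ≤ Fintype.card ι) : 4 ≤ Fintype.card ι := by omega

/-- the action of the centreless quotient -/
noncomputable def pQ : Q104 ι →* Perm (Z2 × ι) := pibar validT aperiodicT (four_le h12)

theorem pQ_mk (x : H104 ι) :
    pQ h12 (mkQ Tile.east Tile.west Tile.north Tile.south x) = pi validT x := rfl

theorem pQ_d {w : ι → Z2} (h : ∑ i, w i = 0) : pQ h12 (dQ w) = dP w := by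
  rw [dQ_of h, pQ_mk, pi_d]

theorem eP_compl_mul (E : Set Z2) (a : Perm ι) : eP E a * eP Eᶜ a = eP Set.univ a := by
  rw [← eP_union (disjoint_compl_right), Set.union_compl_self]

theorem eP_cm (E F : Set Z2) (a b : Perm ι) :
    cm (eP E a) (eP F b) = eP (E ∩ F) (cm a b) := by
  unfold cm
  have hinv : ∀ (E : Set Z2) (a : Perm ι), (eP E a)⁻¹ = eP E a⁻¹ := by
    intro E a
    exact (map_inv (ePHom E) a).symm
  rw [hinv, hinv]
  ext1 ⟨u, f⟩
  simp only [Perm.mul_apply]
  by_cases hE : u ∈ E
  · by_cases hF : u ∈ F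
    · rw [S0.eP_apply_mem hF, S0.eP_apply_mem hE, S0.eP_apply_mem hF, S0.eP_apply_mem hE,
        S0.eP_apply_mem (show u ∈ E ∩ F from ⟨hE, hF⟩)]
      rfl
    · rw [S0.eP_apply_notMem hF, S0.eP_apply_mem hE, S0.eP_apply_notMem hF, S0.eP_apply_mem hE,
        S0.eP_apply_notMem (show u ∉ E ∩ F from fun h => hF h.2)]
      simp
  · by_cases hF : u ∈ F
    · rw [S0.eP_apply_mem hF, S0.eP_apply_notMem hE, S0.eP_apply_mem hF, S0.eP_apply_notMem hE,
        S0.eP_apply_notMem (show u ∉ E ∩ F from fun h => hE h.1)]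
      simp
    · rw [S0.eP_apply_notMem hF, S0.eP_apply_notMem hE, S0.eP_apply_notMem hF,
        S0.eP_apply_notMem hE, S0.eP_apply_notMem (show u ∉ E ∩ F from fun h => hE h.1)]

/-- `X` acts as the set `E`. -/
def Acts (X : Event (flo104 (ι := ι) h12)) (E : Set Z2) : Prop :=
  ∀ a : alternatingGroup ι, pQ h12 (X.toHom a) = eP E (a : Perm ι)

theorem acts_of_three {X : Event (flo104 (ι := ι) h12)} {E : Set Z2}
    (h : ∀ σ : Perm ι, σ.IsThreeCycle → pQ h12 (X σ) = eP E σ) : Acts h12 X E := by
  have : (pQ h12).comp X.toHom = eA E := by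
    apply hom_ext_three
    intro σ hσ
    rw [MonoidHom.comp_apply, toHom_three _ hσ, h σ hσ]
    rfl
  intro a
  have h2 := DFunLike.congr_fun this a
  exact h2

theorem Acts.three {X : Event (flo104 (ι := ι) h12)} {E : Set Z2} (h : Acts h12 X E)
    {σ : Perm ι} (hσ : σ.IsThreeCycle) : pQ h12 (X σ) = eP E σ := by
  have := h ⟨σ, hσ.mem_alternatingGroup⟩
  rwa [toHom_three _ hσ] at this

theorem acts_const : Acts h12 (Event.const : Event (flo104 (ι := ι) h12)) Set.univ := by
  apply acts_of_three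
  intro σ hσ
  rw [const_apply hσ]
  show pQ h12 (cQ _ _ _ _ σ) = _
  rw [cQ_of_mem _ _ _ _ hσ.mem_alternatingGroup, cHom_apply, pQ_mk, pi_c]

theorem Acts.compl {X : Event (flo104 (ι := ι) h12)} {E : Set Z2} (h : Acts h12 X E) :
    Acts h12 X.compl Eᶜ := by
  apply acts_of_three
  intro σ hσ
  rw [compl_apply _ hσ, map_mul, map_inv, h.three h12 hσ, inv_mul_eq_iff_eq_mul, eP_compl_mul,
    ← const_apply hσ]
  exact (acts_const h12).three h12 hσ

theorem Acts.meet {X Y : Event (flo104 (ι := ι) h12)} {E F : Set Z2} (h : Acts h12 X E)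
    (h' : Acts h12 Y F) (hc : Compat X Y) : Acts h12 (X.meet Y) (E ∩ F) := by
  obtain ⟨T, T', hs⟩ := hc
  rw [meet_eq hs]
  apply acts_of_three
  intro σ hσ
  obtain ⟨a, b, c, x, y, hn, rfl, -⟩ := exists_five hσ Finset.univ (Finset.subset_univ _)
    (by rw [Finset.card_univ]; omega)
  rw [splits_cm hs hn]
  simp only [List.nodup_cons, List.mem_cons, List.not_mem_nil, or_false, not_or,
    not_false_eq_true, List.nodup_nil, and_true] at hn
  obtain ⟨⟨hab, hac, hax, hay⟩, ⟨hbc, hbx, hby⟩, ⟨hcx, hcy⟩, hxy⟩ := hn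
  have t1 := cyc_three hab hax hbx
  have t2 := cyc_three hac hay hcy
  have h3 := h.three h12 t1
  have h4 := h'.three h12 t2
  have : pQ h12 (cm (X (cyc a b x)) (Y (cyc a c y))) =
      cm (pQ h12 (X (cyc a b x))) (pQ h12 (Y (cyc a c y))) := by
    unfold cm
    rw [map_mul, map_mul, map_mul, map_inv, map_inv]
  rw [this, h3, h4, eP_cm]
  congr 1
  unfold cm
  exact cyc_commutator hab hac hay hbc hbx hby hcx hcy hxy

theorem acts_tile (v : Z2) (τ : Tile) : Acts h12 (tE (ι := ι) h12 v τ) {u | t (u - v) = τ} := by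
  apply acts_of_three
  intro σ hσ
  show pQ h12 (siteEv _ _ _ _ h12 v {τ} σ) = _
  rw [siteEv_apply _ _ _ hσ, pQ_mk]
  have : ind {τ} (⟨σ, hσ.mem_alternatingGroup⟩ : alternatingGroup ι) =
      Pi.mulSingle τ ⟨σ, hσ.mem_alternatingGroup⟩ := by
    funext τ'
    by_cases hτ : τ' = τ
    · subst hτ; simp [ind]
    · rw [Pi.mulSingle_eq_of_ne hτ]
      simp [ind, hτ]
  rw [this, pi_site_single validT]
  left
  apply card_ne_univ h12
  have h3 : ((⟨σ, hσ.mem_alternatingGroup⟩ : alternatingGroup ι) : Perm ι).support.card = 3 :=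
    three_card hσ
  omega

theorem acts_val (f : Fm Z2 Tile) :
    Acts h12 (f.val (ofCPBA (Event (flo104 (ι := ι) h12))) (tE h12)) (real t f) := by
  induction f with
  | atom v τ => exact acts_tile h12 v τ
  | top => exact acts_const h12
  | neg f ih => exact ih.compl h12
  | conj f g ih1 ih2 => exact ih1.meet h12 ih2 ((siteData h12).compat_val f g)

/-- homomorphisms attached to local sets -/
noncomputable abbrev eQ (X : Set Z2) : alternatingGroup ι →* Q104 ι :=
  SiteData.e (evData (ι := ι) h12) (t : Z2 → Tile) (tE h12) X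

theorem pQ_e {X : Set Z2} (hX : X ∈ LS) (a : alternatingGroup ι) :
    pQ h12 (eQ h12 X a) = eP X (a : Perm ι) := by
  obtain ⟨f, rfl⟩ := exists_fm hX
  rw [show eQ h12 (real t f) = _ from (siteData (ι := ι) h12).e_real f]
  exact acts_val h12 f a

/-- the local algebra -/
def locAlg : P3.LocAlg where
  L := LS
  univ_mem := LS_univ
  compl_mem h := LS_compl h
  inter_mem h h' := LS_inter h h'
  tr_mem h v := LS_translate h v
  free v hv := by
    obtain ⟨F, h1, h2, h3⟩ := LS_free v hv
    exact ⟨F, fun E hE => ⟨h1 E hE, h3 E hE⟩, h2⟩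

theorem eQ_univ (a : alternatingGroup ι) :
    eQ h12 Set.univ a = mkQ _ _ _ _ (c Tile.east Tile.west Tile.north Tile.south a) := by
  rw [show eQ h12 Set.univ a = _ from (siteData (ι := ι) h12).e_univ a]
  show (Event.const : Event (flo104 (ι := ι) h12)).toHom a = _
  rw [toHom_const]
  exact cQ_of_mem _ _ _ _ a.2

/-- The system needed for the centrality of the kernel. -/
noncomputable def sys : P3.Sys ι locAlg (Q104 ι) where
  d := dQ
  d_zero := (shifts h12).d_zero
  d_add w w' h h' := (shifts h12).d_add w w' h h'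
  e := eQ h12
  comm E hE F hF hd a b := by
    obtain ⟨f, rfl⟩ := exists_fm hE
    obtain ⟨g, rfl⟩ := exists_fm hF
    exact (siteData (ι := ι) h12).e_commute f g (Set.disjoint_iff_inter_eq_empty.1 hd) a b
  add E hE F hF hd a := by
    obtain ⟨f, rfl⟩ := exists_fm hE
    obtain ⟨g, rfl⟩ := exists_fm hF
    exact (siteData (ι := ι) h12).e_union f g (Set.disjoint_iff_inter_eq_empty.1 hd) a
  cov E hE w v a hw hv := by
    obtain ⟨f, rfl⟩ := exists_fm hE
    exact (siteData (ι := ι) h12).e_conj f ⟨w, hw⟩ v a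
      (fun i hi => hv i (Perm.mem_support.1 hi))
  cst a w hw := by
    have h := (shifts (ι := ι) h12).d_conj a a.2 w hw
    have h2 : (flo104 (ι := ι) h12).c a = eQ h12 Set.univ a := by
      rw [eQ_univ]; exact cQ_of_mem _ _ _ _ a.2
    rw [h2] at h
    exact h
  gen := by
    rw [eq_top_iff]
    intro x hx0
    clear hx0
    obtain ⟨x, rfl⟩ := QuotientGroup.mk'_surjective _ x
    have hx : x ∈ Subgroup.closure (Set.range (rho Tile.east Tile.west Tile.north Tile.south :
        (Tile → alternatingGroup ι) → _) ∪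
        Set.range (d Tile.east Tile.west Tile.north Tile.south)) := by
      rw [closure_gen]; trivial
    induction hx using Subgroup.closure_induction with
    | mem x hx =>
      rcases hx with ⟨a, rfl⟩ | ⟨w, rfl⟩
      · have ha : a ∈ Subgroup.closure {a : Tile → alternatingGroup ι | ∃ (τ : Tile)
          (s : alternatingGroup ι), (s : Perm ι).IsThreeCycle ∧ a = Pi.mulSingle τ s} := by
          rw [closure_single]; trivial
        induction ha using Subgroup.closure_induction with
        | mem a ha =>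
          obtain ⟨τ, s, hs, rfl⟩ := ha
          apply Subgroup.subset_closure
          left
          refine ⟨{u | t (u - 0) = τ}, tile_mem_LS 0 τ, s, ?_⟩
          rw [show eQ h12 {u | t (u - 0) = τ} = _ from (siteData (ι := ι) h12).e_site 0 τ]
          have h1 : s = ⟨(s : Perm ι), hs.mem_alternatingGroup⟩ := rfl
          show _ = (tE (ι := ι) h12 0 τ).toHom s
          rw [h1, toHom_three _ hs]
          show _ = siteEv _ _ _ _ h12 0 {τ} (s : Perm ι)
          rw [siteEv_apply _ _ _ hs, site_zero]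
          congr 2
          funext τ'
          by_cases hτ : τ' = τ
          · subst hτ; simp [ind]
          · rw [Pi.mulSingle_eq_of_ne hτ]
            simp [ind, hτ]
        | one => rw [map_one, map_one]; exact one_mem _
        | mul a b _ _ ha hb => rw [map_mul, map_mul]; exact mul_mem ha hb
        | inv a _ ha => rw [map_inv, map_inv]; exact inv_mem ha
      · apply Subgroup.subset_closure
        right
        refine ⟨w.1, mem_L.1 w.2, ?_⟩
        rw [dQ_of (mem_L.1 w.2)]
    | one => rw [map_one]; exact one_mem _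
    | mul x y _ _ hx hy => rw [map_mul]; exact mul_mem hx hy
    | inv x _ hx => rw [map_inv]; exact inv_mem hx
  pi := pQ h12
  pi_e E hE a u f hu := by
    rw [pQ_e h12 hE, S0.eP_apply_mem hu]
  pi_e' E hE a u f hu := by
    rw [pQ_e h12 hE, S0.eP_apply_notMem hu]
  pi_d w hw u f := by
    rw [pQ_d h12 hw, dP_apply]

/-- **The action of `H / center H` is faithful.** -/
theorem pQ_injective : Function.Injective (pQ (ι := ι) h12) :=
  (sys h12).pi_injective (by omega) (gruen (H_perfect (by omega)))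

theorem pQ_range : (pQ (ι := ι) h12).range = grp ι LS := by
  apply le_antisymm
  · rintro _ ⟨x, rfl⟩
    obtain ⟨x, rfl⟩ := QuotientGroup.mk'_surjective _ x
    exact range_pi_le validT (fun τ => by simpa using tile_mem_LS 0 τ) ⟨x, rfl⟩
  · unfold grp
    rw [Subgroup.closure_le]
    rintro g (⟨E, hE, a, ha, rfl⟩ | ⟨w, hw, rfl⟩)
    · exact ⟨eQ h12 E ⟨a, ha⟩, pQ_e h12 hE _⟩
    · exact ⟨dQ w, pQ_d h12 hw⟩

/-- **Theorem P**: `H / center H` is the group of the tiling. -/
noncomputable def theoremP : (H104 ι ⧸ Subgroup.center (H104 ι)) ≃* grp ι LS :=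
  (MonoidHom.ofInjective (pQ_injective h12)).trans (MulEquiv.subgroupCongr (pQ_range h12))

theorem H104_perfect (h12 : 12 ≤ Fintype.card ι) : commutator (H104 ι) = ⊤ :=
  H_perfect (by omega)

end Vale.Agent.P196.H783
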