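import Mathlib.Order.PrimeSeparator
import Mathlib.Order.BooleanAlgebra.Basic

/-!
# Partial Boolean algebras, formulas and soundness (helper783, [BR1])
-/

namespace Vale.Agent.P196.H783

/-- Total version of the axioms (Huntington). -/
structure HBA (C : Type*) where
  one : C
  compl : C → C
  inf : C → C → C
  compl_compl : ∀ a, compl (compl a) = a
  inf_one : ∀ a, inf a one = a
  inf_self : ∀ a, inf a a = a
  inf_compl : ∀ a, inf a (compl a) = compl one
  inf_comm : ∀ a b, inf a b = inf b a
  inf_assoc : ∀ a b d, inf (inf a b) d = inf a (inf b d)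
  hunt : ∀ a b, compl (inf (compl (inf a b)) (compl (inf a (compl b)))) = a

namespace HBA

variable {C : Type*} (P : HBA C)

/-- the order -/
def le (a b : C) : Prop := P.inf a b = a

/-- the join -/
def sup (a b : C) : C := P.compl (P.inf (P.compl a) (P.compl b))

/-- zero -/
def zero : C := P.compl P.one

theorem inf_zero (a : C) : P.inf a P.zero = P.zero := by
  unfold zero
  rw [← P.inf_compl a, ← P.inf_assoc, P.inf_self]

theorem zero_inf (a : C) : P.inf P.zero a = P.zero := by
  rw [P.inf_comm, P.inf_zero]

theorem one_inf (a : C) : P.inf P.one a = a := by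
  rw [P.inf_comm, P.inf_one]

theorem compl_zero : P.compl P.zero = P.one := P.compl_compl _

theorem le_refl (a : C) : P.le a a := P.inf_self a

theorem le_trans {a b c : C} (h1 : P.le a b) (h2 : P.le b c) : P.le a c := by
  unfold le at *
  rw [← h1, P.inf_assoc, h2]

theorem le_antisymm {a b : C} (h1 : P.le a b) (h2 : P.le b a) : a = b := by
  unfold le at *
  rw [← h1, P.inf_comm, h2]

theorem inf_le_left (a b : C) : P.le (P.inf a b) a := by
  unfold le
  rw [P.inf_comm (P.inf a b) a, ← P.inf_assoc, P.inf_self]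

theorem inf_le_right (a b : C) : P.le (P.inf a b) b := by
  rw [P.inf_comm]; exact P.inf_le_left b a

theorem le_inf {a b c : C} (h1 : P.le a b) (h2 : P.le a c) : P.le a (P.inf b c) := by
  unfold le at *
  rw [← P.inf_assoc, h1, h2]

theorem zero_le (a : C) : P.le P.zero a := P.zero_inf a

theorem le_one (a : C) : P.le a P.one := P.inf_one a

theorem compl_anti {a b : C} (h : P.le a b) : P.le (P.compl b) (P.compl a) := by
  unfold le at *
  have h0 : P.inf (P.compl b) a = P.zero := by
    rw [← h, P.inf_comm a b, ← P.inf_assoc, P.inf_comm (P.compl b) b, P.inf_compl]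
    exact P.zero_inf a
  have := P.hunt (P.compl b) a
  rw [h0, P.compl_zero, P.one_inf, P.compl_compl] at this
  exact this

theorem le_sup_left (a b : C) : P.le a (P.sup a b) := by
  have := P.compl_anti (P.inf_le_left (P.compl a) (P.compl b))
  rwa [P.compl_compl] at this

theorem le_sup_right (a b : C) : P.le b (P.sup a b) := by
  have := P.compl_anti (P.inf_le_right (P.compl a) (P.compl b))
  rwa [P.compl_compl] at this

theorem sup_le {a b c : C} (h1 : P.le a c) (h2 : P.le b c) : P.le (P.sup a b) c := by
  have := P.compl_anti (P.le_inf (P.compl_anti h1) (P.compl_anti h2))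
  rwa [P.compl_compl] at this

theorem decomp (a b : C) : P.sup (P.inf a b) (P.inf a (P.compl b)) = a := P.hunt a b

theorem eq_of_inf_eq_zero {a b : C} (h : P.inf a b = P.zero) : P.le a (P.compl b) := by
  have := P.decomp a b
  unfold sup at this
  rw [h, P.compl_zero, P.one_inf, P.compl_compl] at this
  unfold le
  exact this

theorem eq_of_inf_compl_eq_zero {a b : C} (h : P.inf a (P.compl b) = P.zero) : P.le a b := by
  have := P.eq_of_inf_eq_zero h
  rwa [P.compl_compl] at this

theorem le_zero {a : C} (h : P.le a P.zero) : a = P.zero := P.le_antisymm h (P.zero_le a)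

theorem distrib (x a b : C) :
    P.le (P.inf x (P.sup a b)) (P.sup (P.inf x a) (P.inf x b)) := by
  set r := P.sup (P.inf x a) (P.inf x b) with hr
  apply P.eq_of_inf_compl_eq_zero
  set y := P.inf (P.inf x (P.sup a b)) (P.compl r) with hy
  have yx : P.le y x := P.le_trans (P.inf_le_left _ _) (P.inf_le_left _ _)
  have yab : P.le y (P.sup a b) := P.le_trans (P.inf_le_left _ _) (P.inf_le_right _ _)
  have yr : P.le y (P.compl r) := P.inf_le_right _ _
  have key : ∀ c, P.le (P.inf x c) r → P.inf y c = P.zero := by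
    intro c hc
    apply P.le_zero
    have h1 : P.le (P.inf y c) r :=
      P.le_trans (P.le_inf (P.le_trans (P.inf_le_left _ _) yx) (P.inf_le_right _ _)) hc
    have h2 : P.le (P.inf y c) (P.compl r) := P.le_trans (P.inf_le_left _ _) yr
    have h3 := P.le_inf h1 h2
    rw [P.inf_compl] at h3
    exact h3
  have ya := P.eq_of_inf_eq_zero (key a (P.le_sup_left _ _))
  have yb := P.eq_of_inf_eq_zero (key b (P.le_sup_right _ _))
  have h4 := P.le_inf ya yb
  apply P.le_zero
  have h5 : P.le y (P.inf (P.sup a b) (P.compl (P.sup a b))) := by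
    apply P.le_inf yab
    unfold sup
    rw [P.compl_compl]
    exact h4
  rw [P.inf_compl] at h5
  exact h5

/-- The Boolean algebra of an `HBA`. -/
@[reducible] def toDistribLattice : DistribLattice C where
  le := P.le
  le_refl := P.le_refl
  le_trans _ _ _ := P.le_trans
  le_antisymm _ _ := P.le_antisymm
  inf := P.inf
  inf_le_left := P.inf_le_left
  inf_le_right := P.inf_le_right
  le_inf _ _ _ := P.le_inf
  sup := P.sup
  le_sup_left := P.le_sup_left
  le_sup_right := P.le_sup_right
  sup_le _ _ _ := P.sup_le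
  le_sup_inf := by
    intro x y z
    -- (x ⊔ y) ⊓ (x ⊔ z) ≤ x ⊔ (y ⊓ z)
    change P.le (P.inf (P.sup x y) (P.sup x z)) (P.sup x (P.inf y z))
    refine P.le_trans (P.distrib (P.sup x y) x z) ?_
    apply P.sup_le
    · exact P.le_trans (P.inf_le_right _ _) (P.le_sup_left _ _)
    · rw [P.inf_comm (P.sup x y) z]
      refine P.le_trans (P.distrib z x y) ?_
      apply P.sup_le
      · exact P.le_trans (P.inf_le_right _ _) (P.le_sup_left _ _)
      · rw [P.inf_comm z y]
        exact P.le_sup_right _ _

/-- Prime filters separate: if `a` is not below `b`, there is a two valued homomorphism which is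
true at `a` and false at `b`. -/
theorem exists_hom {a b : C} (hab : ¬ P.le a b) :
    ∃ ω : C → Prop, ω P.one ∧ (∀ x, ω (P.compl x) ↔ ¬ ω x) ∧
      (∀ x y, ω (P.inf x y) ↔ ω x ∧ ω y) ∧ ω a ∧ ¬ ω b := by
  let _ : DistribLattice C := P.toDistribLattice
  let _ : OrderTop C := { top := P.one, le_top := P.le_one }
  let _ : OrderBot C := { bot := P.zero, bot_le := P.zero_le }
  have hdis : Disjoint ((Order.PFilter.principal a : Order.PFilter C) : Set C)
      ((Order.Ideal.principal b : Order.Ideal C) : Set C) := by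
    rw [Set.disjoint_left]
    intro x hx hx'
    apply hab
    have h1 : a ≤ x := hx
    have h2 : x ≤ b := hx'
    exact P.le_trans h1 h2
  obtain ⟨J, hJ, hIJ, hFJ⟩ := DistribLattice.prime_ideal_of_disjoint_filter_ideal hdis
  have hinf : ∀ x y : C, P.inf x y ∈ J ↔ x ∈ J ∨ y ∈ J := by
    intro x y
    constructor
    · intro h
      exact (Order.Ideal.isPrime_iff_mem_or_mem.1 hJ) h
    · rintro (h | h)
      · exact J.lower (P.inf_le_left x y) h
      · exact J.lower (P.inf_le_right x y) h
  have hone : P.one ∉ J := by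
    intro h
    have h1 := J.lower (P.le_one a) h
    exact (Set.disjoint_left.1 hFJ) (show a ∈ (Order.PFilter.principal a : Order.PFilter C) from
      P.le_refl a) h1
  have hzero : P.zero ∈ J := by
    obtain ⟨z, hz⟩ := J.nonempty'
    exact J.lower (P.zero_le z) hz
  have hcompl : ∀ x, P.compl x ∈ J ↔ x ∉ J := by
    intro x
    constructor
    · intro h h'
      have h1 : x ⊔ P.compl x ∈ J := Order.Ideal.sup_mem h' h
      apply hone
      have h2 : P.sup x (P.compl x) = P.one := by
        unfold sup
        rw [P.inf_compl, P.compl_compl]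
      have h3 : P.sup x (P.compl x) ∈ J := h1
      rwa [h2] at h3
    · intro h
      have h1 : P.inf x (P.compl x) ∈ J := by
        rw [P.inf_compl]; exact hzero
      rcases (hinf _ _).1 h1 with h2 | h2
      · exact absurd h2 h
      · exact h2
  refine ⟨fun x => x ∉ J, hone, fun x => ?_, fun x y => ?_, ?_, ?_⟩
  · change P.compl x ∉ J ↔ ¬ (x ∉ J)
    rw [hcompl x]
  · change P.inf x y ∉ J ↔ x ∉ J ∧ y ∉ J
    rw [hinf]; tauto
  · intro h
    exact (Set.disjoint_left.1 hFJ) (show a ∈ (Order.PFilter.principal a : Order.PFilter C) from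
      P.le_refl a) h
  · intro h
    apply h
    exact hIJ (show b ∈ (Order.Ideal.principal b : Order.Ideal C) from P.le_refl b)

theorem ext_hom {a b : C}
    (h : ∀ ω : C → Prop, ω P.one → (∀ x, ω (P.compl x) ↔ ¬ ω x) →
      (∀ x y, ω (P.inf x y) ↔ ω x ∧ ω y) → (ω a ↔ ω b)) : a = b := by
  apply P.le_antisymm
  · by_contra hab
    obtain ⟨ω, h1, h2, h3, h4, h5⟩ := P.exists_hom hab
    exact h5 ((h ω h1 h2 h3).1 h4)
  · by_contra hab
    obtain ⟨ω, h1, h2, h3, h4, h5⟩ := P.exists_hom hab
    exact h5 ((h ω h1 h2 h3).2 h4)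

end HBA

/-- Partial Boolean algebra: the operations obey the laws on compatible families. -/
structure PBA (B : Type*) where
  compat : B → B → Prop
  one : B
  compl : B → B
  inf : B → B → B
  refl : ∀ a, compat a a
  symm : ∀ a b, compat a b → compat b a
  compat_one : ∀ a, compat one a
  compat_compl : ∀ a b, compat a b → compat a (compl b)
  compat_inf : ∀ a b d, compat a b → compat a d → compat b d → compat (inf a b) d
  compl_compl : ∀ a, compl (compl a) = a
  inf_one : ∀ a, inf a one = a
  inf_self : ∀ a, inf a a = a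
  inf_compl : ∀ a, inf a (compl a) = compl one
  inf_comm : ∀ a b, compat a b → inf a b = inf b a
  inf_assoc : ∀ a b d, compat a b → compat a d → compat b d →
    inf (inf a b) d = inf a (inf b d)
  hunt : ∀ a b, compat a b → compl (inf (compl (inf a b)) (compl (inf a (compl b)))) = a

namespace PBA

variable {B : Type*} (P : PBA B)

/-- A pairwise compatible, closed subset. -/
structure Closed (M : Set B) : Prop where
  pair : ∀ a ∈ M, ∀ b ∈ M, P.compat a b
  one : P.one ∈ M
  compl : ∀ a ∈ M, P.compl a ∈ M
  inf : ∀ a ∈ M, ∀ b ∈ M, P.inf a b ∈ M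

theorem exists_closed (S : Set B) (hS : ∀ a ∈ S, ∀ b ∈ S, P.compat a b) :
    ∃ M, S ⊆ M ∧ P.Closed M := by
  have hch : IsChain P.compat S := fun a ha b hb _ => Or.inl (hS a ha b hb)
  obtain ⟨M, hM, hSM⟩ := hch.exists_maxChain
  have pair : ∀ a ∈ M, ∀ b ∈ M, P.compat a b := by
    intro a ha b hb
    by_cases hab : a = b
    · subst hab; exact P.refl a
    · rcases hM.isChain ha hb hab with h | h
      · exact h
      · exact P.symm _ _ h
  have hmem : ∀ x, (∀ b ∈ M, P.compat x b) → x ∈ M := by
    intro x hx
    have h1 : IsChain P.compat (insert x M) := hM.isChain.insert fun b hb _ => Or.inl (hx b hb)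
    have h2 := hM.2 h1 (Set.subset_insert x M)
    rw [h2]
    exact Set.mem_insert x M
  refine ⟨M, hSM, pair, hmem _ fun b _ => P.compat_one b, fun a ha => hmem _ fun b hb => ?_,
    fun a ha b hb => hmem _ fun d hd => ?_⟩
  · exact P.symm _ _ (P.compat_compl _ _ (pair b hb a ha))
  · exact P.compat_inf a b d (pair a ha b hb) (pair a ha d hd) (pair b hb d hd)

/-- The total algebra on a closed set. -/
def hba {M : Set B} (h : P.Closed M) : HBA M where
  one := ⟨P.one, h.one⟩
  compl a := ⟨P.compl a, h.compl a a.2⟩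
  inf a b := ⟨P.inf a b, h.inf a a.2 b b.2⟩
  compl_compl a := Subtype.ext (P.compl_compl a)
  inf_one a := Subtype.ext (P.inf_one a)
  inf_self a := Subtype.ext (P.inf_self a)
  inf_compl a := Subtype.ext (P.inf_compl a)
  inf_comm a b := Subtype.ext (P.inf_comm a b (h.pair a a.2 b b.2))
  inf_assoc a b d := Subtype.ext (P.inf_assoc a b d (h.pair a a.2 b b.2) (h.pair a a.2 d d.2)
    (h.pair b b.2 d d.2))
  hunt a b := Subtype.ext (P.hunt a b (h.pair a a.2 b b.2))

end PBA

/-- Boolean formulas in the atoms (v, t): the letter at v is t. -/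
inductive Fm (V T : Type*) where
  | atom : V → T → Fm V T
  | top : Fm V T
  | neg : Fm V T → Fm V T
  | conj : Fm V T → Fm V T → Fm V T

namespace Fm

variable {V T : Type*}

/-- Evaluation at a configuration. -/
def ev : Fm V T → (V → T) → Prop
  | atom v t, x => x v = t
  | top, _ => True
  | neg f, x => ¬ f.ev x
  | conj f g, x => f.ev x ∧ g.ev x

/-- Value in a partial Boolean algebra. -/
def val {B : Type*} (P : PBA B) (E : V → T → B) : Fm V T → B
  | atom v t => E v t
  | top => P.one
  | neg f => P.compl (f.val P E)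
  | conj f g => P.inf (f.val P E) (g.val P E)

/-- renaming of sites -/
def map {V' : Type*} (σ : V → V') : Fm V T → Fm V' T
  | atom v t => atom (σ v) t
  | top => top
  | neg f => neg (f.map σ)
  | conj f g => conj (f.map σ) (g.map σ)

theorem ev_map {V' : Type*} (σ : V → V') (f : Fm V T) (x : V' → T) :
    (f.map σ).ev x ↔ f.ev (x ∘ σ) := by
  induction f with
  | atom v t => exact Iff.rfl
  | top => exact Iff.rfl
  | neg f ih => exact not_congr ih
  | conj f g ih1 ih2 => exact and_congr ih1 ih2

variable {B : Type*} (P : PBA B) (E : V → T → B)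

theorem val_mem {M : Set B} (hM : P.Closed M) (hE : ∀ v t, E v t ∈ M) (f : Fm V T) :
    f.val P E ∈ M := by
  induction f with
  | atom v t => exact hE v t
  | top => exact hM.one
  | neg f ih => exact hM.compl _ ih
  | conj f g ih1 ih2 => exact hM.inf _ ih1 _ ih2

/-- Evaluation at a (generalised) valuation of the atoms. -/
def evX (X : V → T → Prop) : Fm V T → Prop
  | atom v t => X v t
  | top => True
  | neg f => ¬ f.evX X
  | conj f g => f.evX X ∧ g.evX X

theorem evX_eq (f : Fm V T) (x : V → T) : f.evX (fun v t => x v = t) ↔ f.ev x := by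
  induction f with
  | atom v t => exact Iff.rfl
  | top => exact Iff.rfl
  | neg f ih => exact not_congr ih
  | conj f g ih1 ih2 => exact and_congr ih1 ih2

/-- **Soundness and completeness**: if the atoms are pairwise compatible and all pairs of formulas
in `Ax` have equal values, then formulas which are equivalent under all valuations obeying `Ax`
have equal values. -/
theorem val_eq_of_ev (hE : ∀ v s w t, P.compat (E v s) (E w t)) (Ax : Fm V T → Fm V T → Prop)
    (hAx : ∀ f g, Ax f g → f.val P E = g.val P E) (f g : Fm V T)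
    (h : ∀ X : V → T → Prop, (∀ a b, Ax a b → (a.evX X ↔ b.evX X)) → (f.evX X ↔ g.evX X)) :
    f.val P E = g.val P E := by
  obtain ⟨M, hSM, hM⟩ := P.exists_closed {b | ∃ v t, b = E v t} (by
    rintro a ⟨v, s, rfl⟩ b ⟨w, t, rfl⟩
    exact hE v s w t)
  have hEM : ∀ v t, E v t ∈ M := fun v t => hSM ⟨v, t, rfl⟩
  have hmem := val_mem P E hM hEM
  have key : (⟨f.val P E, hmem f⟩ : M) = ⟨g.val P E, hmem g⟩ := by
    apply (P.hba hM).ext_hom
    intro ω h1 h2 h3
    have hind : ∀ k : Fm V T, ω ⟨k.val P E, hmem k⟩ ↔
        k.evX (fun v t => ω ⟨E v t, hEM v t⟩) := by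
      intro k
      induction k with
      | atom v t => exact Iff.rfl
      | top => exact ⟨fun _ => trivial, fun _ => h1⟩
      | neg k ih => exact (h2 ⟨k.val P E, hmem k⟩).trans (not_congr ih)
      | conj k l ih1 ih2 =>
        exact (h3 ⟨k.val P E, hmem k⟩ ⟨l.val P E, hmem l⟩).trans (and_congr ih1 ih2)
    rw [hind, hind]
    apply h
    intro a b hab
    rw [← hind, ← hind]
    have hv := hAx a b hab
    have : (⟨a.val P E, hmem a⟩ : M) = ⟨b.val P E, hmem b⟩ := Subtype.ext hv
    rw [this]
  exact congrArg Subtype.val key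

theorem compat_val (hE : ∀ v s w t, P.compat (E v s) (E w t)) (f g : Fm V T) :
    P.compat (f.val P E) (g.val P E) := by
  obtain ⟨M, hSM, hM⟩ := P.exists_closed {b | ∃ v t, b = E v t} (by
    rintro a ⟨v, s, rfl⟩ b ⟨w, t, rfl⟩
    exact hE v s w t)
  have hEM : ∀ v t, E v t ∈ M := fun v t => hSM ⟨v, t, rfl⟩
  exact hM.pair _ (val_mem P E hM hEM f) _ (val_mem P E hM hEM g)

/-- finite disjunction -/
def disj : List (Fm V T) → Fm V T
  | [] => neg top
  | f :: l => neg (conj (neg f) (neg (disj l)))

/-- finite conjunction -/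
def conjs : List (Fm V T) → Fm V T
  | [] => top
  | f :: l => conj f (conjs l)

theorem evX_disj (X : V → T → Prop) (l : List (Fm V T)) :
    (disj l).evX X ↔ ∃ f ∈ l, f.evX X := by
  induction l with
  | nil => simp [disj, evX]
  | cons f l ih =>
    change ¬ (¬ f.evX X ∧ ¬ (disj l).evX X) ↔ _
    rw [ih]
    simp only [List.mem_cons, exists_eq_or_imp]
    generalize (∃ a ∈ l, evX X a) = Q
    generalize evX X f = R
    constructor
    · intro h
      by_contra h'
      exact h ⟨fun hR => h' (Or.inl hR), fun hQ => h' (Or.inr hQ)⟩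
    · rintro (h | h) ⟨h1, h2⟩
      · exact h1 h
      · exact h2 h

theorem ev_disj (x : V → T) (l : List (Fm V T)) :
    (disj l).ev x ↔ ∃ f ∈ l, f.ev x := by
  rw [← evX_eq, evX_disj]
  simp only [evX_eq]

theorem evX_conjs (X : V → T → Prop) (l : List (Fm V T)) :
    (conjs l).evX X ↔ ∀ f ∈ l, f.evX X := by
  induction l with
  | nil => simp [conjs, evX]
  | cons f l ih =>
    change f.evX X ∧ (conjs l).evX X ↔ _
    rw [ih]
    simp

theorem ev_conjs (x : V → T) (l : List (Fm V T)) :
    (conjs l).ev x ↔ ∀ f ∈ l, f.ev x := by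
  rw [← evX_eq, evX_conjs]
  simp only [evX_eq]

/-- The finite set of sites of a formula. -/
def supp [DecidableEq V] : Fm V T → Finset V
  | atom v _ => {v}
  | top => ∅
  | neg f => f.supp
  | conj f g => f.supp ∪ g.supp

theorem ev_congr [DecidableEq V] (f : Fm V T) {x y : V → T} (h : ∀ v ∈ f.supp, x v = y v) :
    f.ev x ↔ f.ev y := by
  induction f with
  | atom v t =>
    have := h v (by simp [supp])
    simp [ev, this]
  | top => exact Iff.rfl
  | neg f ih => exact not_congr (ih h)
  | conj f g ih1 ih2 =>
    refine and_congr (ih1 fun v hv => h v ?_) (ih2 fun v hv => h v ?_)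
    · exact Finset.mem_union_left _ hv
    · exact Finset.mem_union_right _ hv

end Fm

end Vale.Agent.P196.H783
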