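import Vale.Agent.P196.H783.BoolAlg
import Vale.Agent.P196.E3.CPBA

/-!
# [BR2]: realisation of formulas along a tiling, formulas are determined by their realisation
-/

namespace Vale.Agent.P196.H783

open Vale.Agent.P196.E3

/-- Forget the exclusivity principle. -/
def ofCPBA (B : Type*) [CPBA B] : PBA B where
  compat := CPBA.compat
  one := CPBA.one
  compl := CPBA.compl
  inf := CPBA.inf
  refl := CPBA.compat_refl
  symm := CPBA.compat_symm
  compat_one := CPBA.compat_one
  compat_compl := CPBA.compat_compl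
  compat_inf := CPBA.compat_inf
  compl_compl := CPBA.compl_compl
  inf_one := CPBA.inf_one
  inf_self := CPBA.inf_self
  inf_compl := CPBA.inf_compl
  inf_comm := CPBA.inf_comm
  inf_assoc := CPBA.inf_assoc
  hunt := CPBA.huntington

/-- sites -/
abbrev Z2 := ℤ × ℤ

variable {T C : Type*}

/-- Wang validity of a tiling of the plane. -/
def Valid (east west north south : T → C) (P : Z2 → T) : Prop :=
  (∀ z, east (P z) = west (P (z + (1, 0)))) ∧ ∀ z, north (P z) = south (P (z + (0, 1)))

/-- Realisation of a formula along `t`: the atom `(v, τ)` is the set `{u | t (u - v) = τ}`. -/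
def real (t : Z2 → T) (f : Fm Z2 T) : Set Z2 := {u | f.ev (fun v => t (u - v))}

theorem mem_real (t : Z2 → T) (f : Fm Z2 T) (u : Z2) :
    u ∈ real t f ↔ f.ev (fun v => t (u - v)) := Iff.rfl

theorem real_neg (t : Z2 → T) (f : Fm Z2 T) : real t (.neg f) = (real t f)ᶜ := rfl

theorem real_conj (t : Z2 → T) (f g : Fm Z2 T) : real t (.conj f g) = real t f ∩ real t g := rfl

theorem real_top (t : Z2 → T) : real t .top = Set.univ := rfl

theorem real_map (t : Z2 → T) (f : Fm Z2 T) (w : Z2) :
    real t (f.map (fun v => w + v)) = {u | u - w ∈ real t f} := by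
  ext u
  rw [mem_real, Fm.ev_map]
  show _ ↔ f.ev (fun v => t (u - w - v))
  have : ((fun v => t (u - v)) ∘ fun v => w + v) = fun v => t (u - w - v) := by
    funext v
    show t (u - (w + v)) = _
    rw [sub_sub]
  rw [this]

/-- membership depends only on the tiles in a finite window: then it is realised by a formula. -/
theorem exists_real [Fintype T] (t : Z2 → T) (X : Set Z2) (W : Finset Z2)
    (h : ∀ u u' : Z2, (∀ w ∈ W, t (u + w) = t (u' + w)) → (u ∈ X → u' ∈ X)) :
    ∃ f : Fm Z2 T, X = real t f := by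
  classical
  -- the patterns occurring in `X`
  let Q : Finset (W → T) := Finset.univ.filter fun q => ∃ u ∈ X, ∀ w : W, t (u + w) = q w
  refine ⟨Fm.disj (Q.toList.map fun q => Fm.conjs (W.attach.toList.map fun w =>
    Fm.atom (-w.1) (q w))), ?_⟩
  ext u
  rw [mem_real, Fm.ev_disj]
  constructor
  · intro hu
    refine ⟨_, List.mem_map.2 ⟨fun w => t (u + w), ?_, rfl⟩, ?_⟩
    · rw [Finset.mem_toList, Finset.mem_filter]
      exact ⟨Finset.mem_univ _, u, hu, fun _ => rfl⟩
    · rw [Fm.ev_conjs]
      intro k hk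
      obtain ⟨w, -, rfl⟩ := List.mem_map.1 hk
      show t (u - -w.1) = t (u + w.1)
      rw [sub_neg_eq_add]
  · rintro ⟨k, hk, hev⟩
    obtain ⟨q, hq, rfl⟩ := List.mem_map.1 hk
    rw [Finset.mem_toList, Finset.mem_filter] at hq
    obtain ⟨-, u', hu', hq'⟩ := hq
    rw [Fm.ev_conjs] at hev
    refine h u' u (fun w hw => ?_) hu'
    have h1 := hev (Fm.atom (-w) (q ⟨w, hw⟩))
      (List.mem_map.2 ⟨⟨w, hw⟩, Finset.mem_toList.2 (Finset.mem_attach _ _), rfl⟩)
    have h2 : t (u - -w) = q ⟨w, hw⟩ := h1
    rw [sub_neg_eq_add] at h2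
    rw [h2]
    exact hq' ⟨w, hw⟩

/-- The axioms: one tile per site and matching colours. -/
inductive Ax [Fintype T] (east west north south : T → C) : Fm Z2 T → Fm Z2 T → Prop
  | excl (v : Z2) (s t : T) (h : s ≠ t) :
      Ax east west north south (.conj (.atom v s) (.atom v t)) (.neg .top)
  | cover (v : Z2) : Ax east west north south
      (Fm.disj (Finset.univ.toList.map fun t : T => Fm.atom v t)) .top
  | hor (v : Z2) (s t : T) (h : east s ≠ west t) :
      Ax east west north south (.conj (.atom (v + (1, 0)) s) (.atom v t)) (.neg .top)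
  | ver (v : Z2) (s t : T) (h : north s ≠ south t) :
      Ax east west north south (.conj (.atom (v + (0, 1)) s) (.atom v t)) (.neg .top)

/-- A valuation which obeys the axioms is a valid tiling. -/
theorem exists_valid [Fintype T] {east west north south : T → C} {X : Z2 → T → Prop}
    (hX : ∀ a b, Ax east west north south a b → (a.evX X ↔ b.evX X)) :
    ∃ P : Z2 → T, Valid east west north south P ∧ ∀ v s, X v s ↔ P (-v) = s := by
  have h1 : ∀ v, ∃ s, X v s := by
    intro v
    have := (hX _ _ (Ax.cover v)).2 trivial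
    rw [Fm.evX_disj] at this
    obtain ⟨f, hf, hf'⟩ := this
    obtain ⟨s, -, rfl⟩ := List.mem_map.1 hf
    exact ⟨s, hf'⟩
  have h2 : ∀ v s t, X v s → X v t → s = t := by
    intro v s t hs ht
    by_contra hst
    exact (hX _ _ (Ax.excl v s t hst)).1 ⟨hs, ht⟩ trivial
  choose p hp using h1
  have h3 : ∀ v s, X v s ↔ p v = s :=
    fun v s => ⟨fun h => h2 v _ _ (hp v) h, fun h => h ▸ hp v⟩
  refine ⟨fun z => p (-z), ⟨fun z => ?_, fun z => ?_⟩, fun v s => ?_⟩
  · by_contra hne
    have := (hX _ _ (Ax.hor (-(z + (1, 0))) _ _ hne)).1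
    refine this ⟨?_, ?_⟩ trivial
    · show X (-(z + (1, 0)) + (1, 0)) (p (-z))
      have : -(z + (1, 0)) + (1, 0) = -z := by abel
      rw [this]; exact hp _
    · exact hp _
  · by_contra hne
    have := (hX _ _ (Ax.ver (-(z + (0, 1))) _ _ hne)).1
    refine this ⟨?_, ?_⟩ trivial
    · show X (-(z + (0, 1)) + (0, 1)) (p (-z))
      have : -(z + (0, 1)) + (0, 1) = -z := by abel
      rw [this]; exact hp _
    · exact hp _
  · rw [h3]; simp

/-- **Main statement of [BR2]**: if the site events are pairwise compatible and obey the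
axioms, and every valid tiling is locally a translate of `t`, then the value of a
formula depends only on its realisation. -/
theorem val_eq_of_real [Fintype T] {B : Type*} [CPBA B] (E : Z2 → T → B)
    {east west north south : T → C}
    (hE : ∀ v s w t, CPBA.compat (E v s) (E w t))
    (hAx : ∀ f g, Ax east west north south f g → f.val (ofCPBA B) E = g.val (ofCPBA B) E)
    (t : Z2 → T)
    (hlang : ∀ P : Z2 → T, Valid east west north south P → ∀ W : Finset Z2,
      ∃ u, ∀ z ∈ W, P z = t (u + z))
    (f g : Fm Z2 T) (hfg : real t f = real t g) :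
    f.val (ofCPBA B) E = g.val (ofCPBA B) E := by
  classical
  apply Fm.val_eq_of_ev (ofCPBA B) E hE (Ax east west north south) hAx
  intro X hX
  obtain ⟨P, hP, hXP⟩ := exists_valid hX
  have hX' : X = fun v s => P (-v) = s := by
    funext v s; exact propext (hXP v s)
  rw [hX']
  have h1 : ∀ k : Fm Z2 T, k.evX (fun v s => P (-v) = s) ↔ k.ev (fun v => P (-v)) :=
    fun k => k.evX_eq (fun v => P (-v))
  rw [h1, h1]
  obtain ⟨u, hu⟩ := hlang P hP ((f.supp ∪ g.supp).image fun v => -v)
  have h2 : ∀ v ∈ f.supp ∪ g.supp, P (-v) = t (u - v) := by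
    intro v hv
    rw [hu (-v) (Finset.mem_image_of_mem _ hv), sub_eq_add_neg]
  rw [f.ev_congr (y := fun v => t (u - v)) fun v hv => h2 v (Finset.mem_union_left _ hv),
    g.ev_congr (y := fun v => t (u - v)) fun v hv => h2 v (Finset.mem_union_right _ hv)]
  rw [← mem_real, ← mem_real, hfg]

end Vale.Agent.P196.H783
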