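import Vale.Agent.P196.H881.HSupp
import Vale.Agent.P196.H83.PBA
import Vale.Agent.P196.H783.Real

/-!
# The centreless quotient of `H` carries the event calculus; the site events
-/

namespace Vale.Agent.P196.H783

set_option linter.unusedSectionVars false

open Vale.Agent.P196.H881 Vale.Agent.P196.Ev Equiv Equiv.Perm

variable {ι : Type*} [Fintype ι] [DecidableEq ι] {T : Type*} [Fintype T] [DecidableEq T]
variable {C : Type*} [Fintype C] [DecidableEq C]

/-- The centreless quotient of `H`. -/
abbrev Q (ι : Type*) [Fintype ι] [DecidableEq ι] {T : Type*} [Fintype T] [DecidableEq T]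
    {C : Type*} [Fintype C] [DecidableEq C] (E W N S : T → C) :=
  H ι E W N S ⧸ Subgroup.center (H ι E W N S)

variable (E W N S : T → C)

/-- projection -/
abbrev mkQ : H ι E W N S →* Q ι E W N S := QuotientGroup.mk' _

/-- constants in the quotient, as a homomorphism -/
noncomputable def cHom : alternatingGroup ι →* Q ι E W N S :=
  (mkQ E W N S).comp (MonoidHom.mk' (c E W N S) c_mul)

theorem cHom_apply (s : alternatingGroup ι) :
    cHom E W N S s = mkQ E W N S (c E W N S s) := rfl

open Classical in
/-- constants in the quotient, extended by one to odd permutations -/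
noncomputable def cQ (σ : Perm ι) : Q ι E W N S :=
  if h : σ ∈ alternatingGroup ι then cHom E W N S ⟨σ, h⟩ else 1

theorem cQ_of_mem {σ : Perm ι} (h : σ ∈ alternatingGroup ι) :
    cQ E W N S σ = cHom E W N S ⟨σ, h⟩ := dif_pos h

theorem gen_aux (h12 : 12 ≤ Fintype.card ι) (x : Q ι E W N S)
    (h : ∀ J : Finset ι, J.card ≤ 5 → ∀ y ∈ (SH E W N S J).map (mkQ E W N S), x * y = y * x) :
    x = 1 := by
  have hne : Nonempty ι := Fintype.card_pos_iff.1 (by omega)
  have hcen : x ∈ Subgroup.center (Q ι E W N S) := by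
    rw [Subgroup.mem_center_iff]
    intro g
    obtain ⟨g, rfl⟩ := QuotientGroup.mk'_surjective _ g
    have hle : (⨆ J : {J : Finset ι // J.card ≤ 3}, SH E W N S J.1) ≤
        (Subgroup.centralizer {x}).comap (mkQ E W N S) := by
      apply iSup_le
      rintro ⟨J, hJ⟩ y hy
      rw [Subgroup.mem_comap, Subgroup.mem_centralizer_singleton_iff]
      exact (h J (by omega) _ ⟨y, hy, rfl⟩).symm
    rw [SH_gen] at hle
    have := hle (Subgroup.mem_top g)
    rw [Subgroup.mem_comap, Subgroup.mem_centralizer_singleton_iff] at this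
    exact this
  rw [gruen (H_perfect (by omega))] at hcen
  exact Subgroup.mem_bot.1 hcen

/-- The floor structure of the centreless quotient. -/
noncomputable def flo (h12 : 12 ≤ Fintype.card ι) : Floors ι (Q ι E W N S) where
  S I := (SH E W N S I).map (mkQ E W N S)
  mono h := Subgroup.map_mono (SH_mono h)
  comm := by
    rintro I J hIJ _ ⟨x, hx, rfl⟩ _ ⟨y, hy, rfl⟩
    exact ((SH_comm hIJ hx hy).map (mkQ E W N S)).eq
  c := cQ E W N S
  c_mul := by
    intro v hv w hw
    rw [cQ_of_mem _ _ _ _ hv, cQ_of_mem _ _ _ _ hw, cQ_of_mem _ _ _ _ (mul_mem hv hw), ← map_mul]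
    rfl
  c_conj := by
    rintro w hw I _ ⟨x, hx, rfl⟩
    rw [cQ_of_mem _ _ _ _ hw, cHom_apply, ← map_inv, ← map_mul, ← map_mul]
    exact ⟨_, SH_conj ⟨w, hw⟩ hx, rfl⟩
  c_supp := by
    intro σ hσ
    rw [cQ_of_mem _ _ _ _ hσ.mem_alternatingGroup]
    exact ⟨_, c_mem_SH ⟨σ, hσ.mem_alternatingGroup⟩, rfl⟩
  gen := gen_aux E W N S h12
  card := h12

/-- the family which is `s` on `A` and `1` elsewhere -/
def ind (A : Finset T) (s : alternatingGroup ι) : T → alternatingGroup ι :=
  fun τ => if τ ∈ A then s else 1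

theorem ind_mul (A : Finset T) (s s' : alternatingGroup ι) :
    ind A (s * s') = ind A s * ind A s' := by
  funext τ
  by_cases h : τ ∈ A <;> simp [ind, h]

theorem ind_inv (A : Finset T) (s : alternatingGroup ι) : ind A s⁻¹ = (ind A s)⁻¹ := by
  funext τ
  by_cases h : τ ∈ A <;> simp [ind, h]

theorem ind_one (A : Finset T) : ind A (1 : alternatingGroup ι) = 1 := by
  funext τ
  by_cases h : τ ∈ A <;> simp [ind, h]

theorem ind_conj (A : Finset T) (g s : alternatingGroup ι) :
    const T g * ind A s * (const T g)⁻¹ = ind A (g * s * g⁻¹) := by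
  funext τ
  by_cases h : τ ∈ A <;> simp [ind, h, const]

theorem ind_univ (s : alternatingGroup ι) : ind (Finset.univ : Finset T) s = const T s := by
  funext τ; simp [ind, const]

theorem ind_union {A B : Finset T} (h : Disjoint A B) (s : alternatingGroup ι) :
    ind (A ∪ B) s = ind A s * ind B s := by
  funext τ
  by_cases hA : τ ∈ A
  · have hB : τ ∉ B := Finset.disjoint_left.1 h hA
    simp [ind, hA, hB]
  · simp [ind, hA]

theorem ind_filter (f : T → C) (k : C) (s : alternatingGroup ι) :
    ind (Finset.univ.filter fun τ => f τ = k) s = col f k s := by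
  funext τ; simp [ind, col]

theorem supp_ind_le (A : Finset T) (s : alternatingGroup ι) :
    supp (ind A s) ⊆ (s : Perm ι).support := by
  intro i
  simp only [mem_supp, ind, Perm.mem_support]
  rintro ⟨τ, h⟩
  by_cases hk : τ ∈ A
  · simpa [hk] using h
  · simp [hk] at h

theorem commute_ind {A B : Finset T} (h : Disjoint A B) (s s' : alternatingGroup ι) :
    Commute (ind A s) (ind B s') := by
  show _ * _ = _ * _
  funext τ
  by_cases hA : τ ∈ A
  · have hB : τ ∉ B := Finset.disjoint_left.1 h hA
    simp [ind, hA, hB]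
  · simp [ind, hA]

theorem card_ne_univ (h12 : 12 ≤ Fintype.card ι) {I : Finset ι} (h : I.card ≤ 11) :
    I ≠ Finset.univ := by
  rintro rfl
  rw [Finset.card_univ] at h
  omega

theorem three_card {σ : Perm ι} (h : σ.IsThreeCycle) : σ.support.card = 3 := h.card_support

open Classical in
/-- value of the site event -/
noncomputable def siteT (v : ℤ × ℤ) (A : Finset T) (σ : Perm ι) : Q ι E W N S :=
  if h : σ.IsThreeCycle then mkQ E W N S (site E W N S v (ind A ⟨σ, h.mem_alternatingGroup⟩))
  else 1

theorem siteT_of {v : ℤ × ℤ} {A : Finset T} {σ : Perm ι} (h : σ.IsThreeCycle) :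
    siteT E W N S v A σ =
      mkQ E W N S (site E W N S v (ind A ⟨σ, h.mem_alternatingGroup⟩)) := dif_pos h

theorem site_ind_mul (h12 : 12 ≤ Fintype.card ι) (v : ℤ × ℤ) (A B : Finset T)
    {σ τ : alternatingGroup ι} (hσ : (σ : Perm ι).support.card ≤ 5)
    (hτ : (τ : Perm ι).support.card ≤ 5) :
    site E W N S v (ind A σ * ind B τ) =
      site E W N S v (ind A σ) * site E W N S v (ind B τ) := by
  apply site_mul
  apply card_ne_univ h12
  have h1 := Finset.card_union_le (supp (ind A σ)) (supp (ind B τ))
  have h2 := Finset.card_le_card (supp_ind_le A σ)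
  have h3 := Finset.card_le_card (supp_ind_le B τ)
  omega

theorem three_le {σ : Perm ι} (h : σ.IsThreeCycle) : σ.support.card ≤ 5 := by
  rw [three_card h]; norm_num

/-- A sum-zero vector equal to `v` on a set of three floors inside `I`, vanishing outside `I`. -/
theorem exists_L_in (J I : Finset ι) (hJI : J ⊆ I) (hne : J ≠ I) (v : ℤ × ℤ) :
    ∃ w : L ι, (∀ i ∈ J, w.1 i = v) ∧ ∀ i, i ∉ I → w.1 i = 0 := by
  obtain ⟨j, hjI, hjJ⟩ : ∃ j ∈ I, j ∉ J := by
    by_contra h
    push Not at h
    exact hne (Finset.Subset.antisymm hJI h)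
  refine ⟨⟨fun i => (if i ∈ J then v else 0) + (if i = j then -(J.card • v) else 0), ?_⟩, ?_, ?_⟩
  · rw [mem_L, Finset.sum_add_distrib]
    simp [Finset.sum_ite_mem]
  · intro i hi
    have : i ≠ j := fun h' => hjJ (h' ▸ hi)
    simp [hi, this]
  · intro i hi
    have h1 : i ∉ J := fun h' => hi (hJI h')
    have h2 : i ≠ j := fun h' => hi (h' ▸ hjI)
    simp [h1, h2]

/-- The event of the tiles in `A` at the site `v`: `{u | t (u - v) ∈ A}`. -/
noncomputable def siteEv (h12 : 12 ≤ Fintype.card ι) (v : ℤ × ℤ) (A : Finset T) :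
    Event (flo E W N S h12) where
  t := siteT E W N S v A
  off σ hσ := dif_neg hσ
  mul := by
    intro σ τ hσ hτ hστ
    rw [siteT_of _ _ _ _ hσ, siteT_of _ _ _ _ hτ, siteT_of _ _ _ _ hστ, ← map_mul,
      ← site_ind_mul E W N S h12 v A A (three_le hσ) (three_le hτ), ← ind_mul]
    rfl
  conj := by
    intro σ τ hσ hτ
    rw [siteT_of _ _ _ _ hσ, siteT_of _ _ _ _ hτ,
      siteT_of _ _ _ _ (Ev.IsThreeCycle.conj hτ σ), ← map_inv, ← map_mul, ← map_mul, ← site_inv]
    congr 1
    have h1 := three_card hσ
    have h2 := three_card hτ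
    have hs : supp (ind A ⟨σ, hσ.mem_alternatingGroup⟩) ⊆ σ.support := supp_ind_le _ _
    have ht : supp (ind A ⟨τ, hτ.mem_alternatingGroup⟩) ⊆ τ.support := supp_ind_le _ _
    have hcu : (σ.support ∪ τ.support).card ≤ 11 := by
      have := Finset.card_union_le σ.support τ.support
      omega
    rw [← site_mul, ← site_mul, ← ind_mul, ← ind_inv, ← ind_mul]
    · rfl
    · apply card_ne_univ h12
      refine (Finset.card_le_card ?_).trans hcu
      rw [supp_inv]
      refine Finset.union_subset ((supp_mul _ _).trans (Finset.union_subset_union hs ht)) ?_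
      exact hs.trans Finset.subset_union_left
    · apply card_ne_univ h12
      exact (Finset.card_le_card (Finset.union_subset_union hs ht)).trans hcu
  equiv := by
    intro w hw τ hτ
    show cQ E W N S w * _ * (cQ E W N S w)⁻¹ = _
    rw [cQ_of_mem _ _ _ _ hw, cHom_apply, siteT_of _ _ _ _ hτ,
      siteT_of _ _ _ _ (Ev.IsThreeCycle.conj hτ w), ← map_inv, ← map_mul, ← map_mul, c_site,
      ind_conj]
    · rfl
    · left
      apply card_ne_univ h12
      have h1 := Finset.card_le_card (supp_ind_le A (⟨τ, hτ.mem_alternatingGroup⟩ :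
        alternatingGroup ι))
      have h2 := three_card hτ
      have h3 : ((⟨τ, hτ.mem_alternatingGroup⟩ : alternatingGroup ι) : Perm ι).support.card = 3 :=
        h2
      omega
  supp := by
    intro τ hτ I hI h5
    rw [siteT_of _ _ _ _ hτ]
    refine ⟨_, ?_, rfl⟩
    have hne : τ.support ≠ I := by
      intro h
      have := three_card hτ
      rw [h] at this
      omega
    obtain ⟨w, hw, hw'⟩ := exists_L_in τ.support I hI hne v
    have hs : supp (ind A ⟨τ, hτ.mem_alternatingGroup⟩) ⊆ τ.support := supp_ind_le _ _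
    rw [site_eq (w := w) (fun i hi => hw i (hs hi))]
    exact mul_mem (mul_mem (d_mem_SH hw') (rho_mem_SH (hs.trans hI))) (inv_mem (d_mem_SH hw'))

variable {E W N S} (h12 : 12 ≤ Fintype.card ι)

theorem siteEv_apply (v : ℤ × ℤ) (A : Finset T) {σ : Perm ι} (h : σ.IsThreeCycle) :
    siteEv E W N S h12 v A σ =
      mkQ E W N S (site E W N S v (ind A ⟨σ, h.mem_alternatingGroup⟩)) :=
  siteT_of _ _ _ _ h

theorem siteEv_univ (v : ℤ × ℤ) :
    siteEv E W N S h12 v (Finset.univ : Finset T) = Event.const := by
  ext σ hσ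
  rw [siteEv_apply _ _ _ hσ, const_apply hσ, ind_univ, site_const]
  exact (cQ_of_mem _ _ _ _ hσ.mem_alternatingGroup).symm

theorem siteEv_empty (v : ℤ × ℤ) :
    siteEv E W N S h12 v (∅ : Finset T) = Event.zero := by
  ext σ hσ
  rw [siteEv_apply _ _ _ hσ, Ev.zero_apply]
  have : ind (∅ : Finset T) (⟨σ, hσ.mem_alternatingGroup⟩ : alternatingGroup ι) = 1 := by
    funext τ; simp [ind]
  rw [this, site_one, map_one]

theorem siteEv_perp (v : ℤ × ℤ) {A B : Finset T} (h : Disjoint A B) :
    Perp (siteEv E W N S h12 v A) (siteEv E W N S h12 v B) := by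
  intro σ τ hσ hτ
  rw [siteEv_apply _ _ _ hσ, siteEv_apply _ _ _ hτ]
  have h1 : Commute (site E W N S v (ind A ⟨σ, hσ.mem_alternatingGroup⟩))
      (site E W N S v (ind B ⟨τ, hτ.mem_alternatingGroup⟩)) := by
    apply site_commute_same (commute_ind h _ _)
    apply card_ne_univ h12
    have hs : supp (ind A ⟨σ, hσ.mem_alternatingGroup⟩) ⊆ σ.support := supp_ind_le _ _
    have ht : supp (ind B ⟨τ, hτ.mem_alternatingGroup⟩) ⊆ τ.support := supp_ind_le _ _
    have h1 := three_card hσ
    have h2 := three_card hτ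
    have h3 := Finset.card_union_le σ.support τ.support
    have h4 := Finset.card_le_card (Finset.union_subset_union hs ht)
    omega
  exact (h1.map (mkQ E W N S)).eq

theorem siteEv_union (v : ℤ × ℤ) {A B : Finset T} (h : Disjoint A B) :
    siteEv E W N S h12 v (A ∪ B) =
      Event.add (siteEv E W N S h12 v A) (siteEv E W N S h12 v B) (siteEv_perp h12 v h) := by
  ext σ hσ
  rw [Ev.add_apply, siteEv_apply _ _ _ hσ, siteEv_apply _ _ _ hσ, siteEv_apply _ _ _ hσ, ← map_mul,
    ind_union h, site_ind_mul E W N S h12 v A B (three_le hσ) (three_le hσ)]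

theorem siteEv_le (v : ℤ × ℤ) {A B : Finset T} (h : A ⊆ B) :
    Le (siteEv E W N S h12 v A) (siteEv E W N S h12 v B) := by
  have h1 : Disjoint A (B \ A) := Finset.disjoint_sdiff
  have h2 : B = A ∪ (B \ A) := (Finset.union_sdiff_of_subset h).symm
  rw [h2, siteEv_union h12 v h1]
  exact le_add_left _

theorem siteEv_splits (v : ℤ × ℤ) (A B : Finset T) :
    Splits (siteEv E W N S h12 v A) (siteEv E W N S h12 v B) (siteEv E W N S h12 v (A ∩ B))
      (siteEv E W N S h12 v (A \ B)) where
  perp := siteEv_perp h12 v (Finset.disjoint_of_subset_left Finset.inter_subset_right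
    Finset.disjoint_sdiff)
  eq := by
    intro σ hσ
    have h : Disjoint (A ∩ B) (A \ B) := Finset.disjoint_of_subset_left
      Finset.inter_subset_right Finset.disjoint_sdiff
    have h2 : A = (A ∩ B) ∪ (A \ B) := by
      rw [Finset.union_comm]; exact (Finset.sdiff_union_inter A B).symm
    conv_lhs => rw [h2]
    rw [siteEv_union h12 v h, Ev.add_apply]
  le := siteEv_le h12 v Finset.inter_subset_right
  perpK := siteEv_perp h12 v Finset.sdiff_disjoint

theorem siteEv_meet (v : ℤ × ℤ) (A B : Finset T) :
    (siteEv E W N S h12 v A).meet (siteEv E W N S h12 v B) = siteEv E W N S h12 v (A ∩ B) :=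
  meet_eq (siteEv_splits h12 v A B)

theorem siteEv_compl (v : ℤ × ℤ) (A : Finset T) :
    (siteEv E W N S h12 v A).compl = siteEv E W N S h12 v Aᶜ := by
  have h : Disjoint A Aᶜ := disjoint_compl_right
  have h1 := siteEv_univ (E := E) (W := W) (N := N) (S := S) h12 v
  have h2 : (Finset.univ : Finset T) = A ∪ Aᶜ := (Finset.union_compl A).symm
  rw [h2, siteEv_union h12 v h] at h1
  ext σ hσ
  rw [compl_apply _ hσ, ← const_apply hσ, ← h1, Ev.add_apply]
  group

theorem siteEv_hor (v : ℤ × ℤ) (k : C) :
    siteEv E W N S h12 (v + (1, 0)) (Finset.univ.filter fun τ => E τ = k) =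
      siteEv E W N S h12 v (Finset.univ.filter fun τ => W τ = k) := by
  ext σ hσ
  rw [siteEv_apply _ _ _ hσ, siteEv_apply _ _ _ hσ, ind_filter, ind_filter, site_colour_h]
  apply card_ne_univ h12
  have : (⟨σ, hσ.mem_alternatingGroup⟩ : alternatingGroup ι).1.support.card = 3 := three_card hσ
  omega

theorem siteEv_ver (v : ℤ × ℤ) (k : C) :
    siteEv E W N S h12 (v + (0, 1)) (Finset.univ.filter fun τ => N τ = k) =
      siteEv E W N S h12 v (Finset.univ.filter fun τ => S τ = k) := by
  ext σ hσ
  rw [siteEv_apply _ _ _ hσ, siteEv_apply _ _ _ hσ, ind_filter, ind_filter, site_colour_v]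
  apply card_ne_univ h12
  have : (⟨σ, hσ.mem_alternatingGroup⟩ : alternatingGroup ι).1.support.card = 3 := three_card hσ
  omega

/-- The single tile events. -/
noncomputable def tileEv (v : ℤ × ℤ) (τ : T) : Event (flo E W N S h12) :=
  siteEv E W N S h12 v {τ}

/-- value of formulas with atoms at one site only -/
theorem val_at (v : ℤ × ℤ) (f : Fm Z2 T) (hf : f.supp ⊆ {v}) :
    f.val (ofCPBA (Event (flo E W N S h12))) (tileEv h12) =
      siteEv E W N S h12 v (open Classical in Finset.univ.filter fun τ => f.ev fun _ => τ) := by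
  classical
  induction f with
  | atom u τ =>
    have hu : u = v := by
      have : u ∈ ({v} : Finset (ℤ × ℤ)) := hf (by simp [Fm.supp])
      simpa using this
    subst hu
    show siteEv E W N S h12 u {τ} = _
    congr 1
    ext τ'
    rw [Finset.mem_filter]
    simp [Fm.ev]
  | top =>
    show Event.const = _
    rw [← siteEv_univ h12 v]
    congr 1
    ext τ'
    rw [Finset.mem_filter]
    simp [Fm.ev]
  | neg f ih =>
    show (f.val (ofCPBA (Event (flo E W N S h12))) (tileEv h12)).compl = _
    rw [ih hf, siteEv_compl]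
    congr 1
    ext τ'
    rw [Finset.mem_compl, Finset.mem_filter, Finset.mem_filter]
    simp [Fm.ev]
  | conj f g ih1 ih2 =>
    show (f.val (ofCPBA (Event (flo E W N S h12))) (tileEv h12)).meet
      (g.val (ofCPBA (Event (flo E W N S h12))) (tileEv h12)) = _
    rw [ih1 (Finset.union_subset_left hf), ih2 (Finset.union_subset_right hf), siteEv_meet]
    congr 1
    ext τ'
    rw [Finset.mem_inter, Finset.mem_filter, Finset.mem_filter, Finset.mem_filter]
    simp [Fm.ev]

/-- **The Wang axioms hold for the tile events.** -/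
theorem tileEv_ax (f g : Fm Z2 T) (h : Ax E W N S f g) :
    f.val (ofCPBA (Event (flo E W N S h12))) (tileEv h12) =
      g.val (ofCPBA (Event (flo E W N S h12))) (tileEv h12) := by
  classical
  have hzero : (Fm.neg (Fm.top : Fm Z2 T)).val (ofCPBA (Event (flo E W N S h12))) (tileEv h12) =
      (Event.zero : Event (flo E W N S h12)) := by
    show (Event.const : Event (flo E W N S h12)).compl = _
    ext σ hσ
    rw [compl_apply _ hσ, const_apply hσ, Ev.zero_apply]; group
  cases h with
  | excl v s t hst =>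
    rw [hzero, val_at h12 v _ (by simp [Fm.supp]), ← siteEv_empty h12 v]
    congr 1
    ext τ
    rw [Finset.mem_filter]
    simp only [Fm.ev, Finset.mem_univ, true_and, Finset.notMem_empty, iff_false, not_and]
    rintro rfl; exact hst
  | cover v =>
    rw [val_at h12 v _ ?_, show (Fm.top : Fm Z2 T).val (ofCPBA (Event (flo E W N S h12)))
      (tileEv h12) = Event.const from rfl, ← siteEv_univ h12 v]
    · congr 1
      ext τ
      simp only [Finset.mem_filter, Finset.mem_univ, true_and, iff_true]
      rw [Fm.ev_disj]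
      exact ⟨_, List.mem_map.2 ⟨τ, by simp, rfl⟩, rfl⟩
    · have key : ∀ l : List T, (Fm.disj (l.map fun t : T => Fm.atom v t)).supp ⊆ {v} := by
        intro l
        induction l with
        | nil => simp [Fm.disj, Fm.supp]
        | cons a l ih =>
          simp only [List.map_cons, Fm.disj, Fm.supp]
          exact Finset.union_subset (Finset.Subset.refl _) ih
      exact key _
  | hor v s t hst =>
    rw [hzero]
    show (siteEv E W N S h12 (v + (1, 0)) {s}).meet (siteEv E W N S h12 v {t}) = _
    apply meet_eq (T' := siteEv E W N S h12 (v + (1, 0)) {s})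
    apply splits_of_perp
    have h1 : Le (siteEv E W N S h12 (v + (1, 0)) {s})
        (siteEv E W N S h12 v (Finset.univ.filter fun τ => W τ = E s)) := by
      rw [← siteEv_hor]
      apply siteEv_le
      intro τ hτ
      rw [Finset.mem_singleton] at hτ
      simp [hτ]
    refine perp_of_le_perp h1 ?_
    apply siteEv_perp
    rw [Finset.disjoint_left]
    intro τ hτ hτ'
    rw [Finset.mem_singleton] at hτ
    subst hτ
    rw [Finset.mem_filter] at hτ'
    exact hst hτ'.2.symm
  | ver v s t hst =>
    rw [hzero]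
    show (siteEv E W N S h12 (v + (0, 1)) {s}).meet (siteEv E W N S h12 v {t}) = _
    apply meet_eq (T' := siteEv E W N S h12 (v + (0, 1)) {s})
    apply splits_of_perp
    have h1 : Le (siteEv E W N S h12 (v + (0, 1)) {s})
        (siteEv E W N S h12 v (Finset.univ.filter fun τ => S τ = N s)) := by
      rw [← siteEv_ver]
      apply siteEv_le
      intro τ hτ
      rw [Finset.mem_singleton] at hτ
      simp [hτ]
    refine perp_of_le_perp h1 ?_
    apply siteEv_perp
    rw [Finset.disjoint_left]
    intro τ hτ hτ'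
    rw [Finset.mem_singleton] at hτ
    subst hτ
    rw [Finset.mem_filter] at hτ'
    exact hst hτ'.2.symm

end Vale.Agent.P196.H783
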