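import Vale.Agent.P196.H783.Floors
import Vale.Agent.P196.E3.Main
import Vale.Agent.P196.Tile.Lang
import Vale.Agent.P196.Tile.Local
import Vale.Agent.P196.H881.HPi

/-!
# The tile events of `H / center H` form a quantum Wang tiling, hence are pairwise compatible
-/

namespace Vale.Agent.P196.H783

set_option linter.unusedSectionVars false

open Vale.Agent.P196.H881 Vale.Agent.P196.Ev Equiv Equiv.Perm

section general

variable {ι : Type*} [Fintype ι] [DecidableEq ι] {T : Type*} [Fintype T] [DecidableEq T]
variable {C : Type*} [Fintype C] [DecidableEq C] {E W N S : T → C}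
variable (h12 : 12 ≤ Fintype.card ι)

theorem siteEv_hor' (v : ℤ × ℤ) (K : Finset C) :
    siteEv E W N S h12 (v + (1, 0)) (Finset.univ.filter fun τ => E τ ∈ K) =
      siteEv E W N S h12 v (Finset.univ.filter fun τ => W τ ∈ K) := by
  induction K using Finset.induction_on with
  | empty =>
    have h1 : (Finset.univ.filter fun τ => E τ ∈ (∅ : Finset C)) = ∅ := by simp
    have h2 : (Finset.univ.filter fun τ => W τ ∈ (∅ : Finset C)) = ∅ := by simp
    rw [h1, h2, siteEv_empty, siteEv_empty]
  | insert k K hk ih =>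
    have h1 : ∀ f : T → C, (Finset.univ.filter fun τ => f τ ∈ insert k K) =
        (Finset.univ.filter fun τ => f τ = k) ∪ (Finset.univ.filter fun τ => f τ ∈ K) := by
      intro f; ext τ; simp
    have h2 : ∀ f : T → C, Disjoint (Finset.univ.filter fun τ => f τ = k)
        (Finset.univ.filter fun τ => f τ ∈ K) := by
      intro f
      rw [Finset.disjoint_left]
      intro τ h1 h2
      rw [Finset.mem_filter] at h1 h2
      rw [h1.2] at h2
      exact hk h2.2
    rw [h1, h1, siteEv_union _ _ (h2 E), siteEv_union _ _ (h2 W)]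
    ext σ hσ
    rw [Ev.add_apply, Ev.add_apply, siteEv_hor, ih]

theorem siteEv_ver' (v : ℤ × ℤ) (K : Finset C) :
    siteEv E W N S h12 (v + (0, 1)) (Finset.univ.filter fun τ => N τ ∈ K) =
      siteEv E W N S h12 v (Finset.univ.filter fun τ => S τ ∈ K) := by
  induction K using Finset.induction_on with
  | empty =>
    have h1 : (Finset.univ.filter fun τ => N τ ∈ (∅ : Finset C)) = ∅ := by simp
    have h2 : (Finset.univ.filter fun τ => S τ ∈ (∅ : Finset C)) = ∅ := by simp
    rw [h1, h2, siteEv_empty, siteEv_empty]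
  | insert k K hk ih =>
    have h1 : ∀ f : T → C, (Finset.univ.filter fun τ => f τ ∈ insert k K) =
        (Finset.univ.filter fun τ => f τ = k) ∪ (Finset.univ.filter fun τ => f τ ∈ K) := by
      intro f; ext τ; simp
    have h2 : ∀ f : T → C, Disjoint (Finset.univ.filter fun τ => f τ = k)
        (Finset.univ.filter fun τ => f τ ∈ K) := by
      intro f
      rw [Finset.disjoint_left]
      intro τ h1 h2
      rw [Finset.mem_filter] at h1 h2
      rw [h1.2] at h2
      exact hk h2.2
    rw [h1, h1, siteEv_union _ _ (h2 N), siteEv_union _ _ (h2 S)]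
    ext σ hσ
    rw [Ev.add_apply, Ev.add_apply, siteEv_ver, ih]

end general

open Vale.Agent.P196.Wang Vale.Agent.P196.E3

variable {ι : Type*} [Fintype ι] [DecidableEq ι] (h12 : 12 ≤ Fintype.card ι)

/-- The group of the 104 tiles. -/
abbrev H104 (ι : Type*) [Fintype ι] [DecidableEq ι] :=
  H ι Tile.east Tile.west Tile.north Tile.south

/-- The centreless quotient for the 104 tiles. -/
abbrev Q104 (ι : Type*) [Fintype ι] [DecidableEq ι] :=
  Q ι Tile.east Tile.west Tile.north Tile.south

/-- The floors for the 104 tiles. -/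
noncomputable abbrev flo104 : Floors ι (Q104 ι) :=
  flo Tile.east Tile.west Tile.north Tile.south h12

open Classical in
/-- the quantum Wang tiling -/
noncomputable def qwt (v : ℤ × ℤ) (A : Set Tile) : Event (flo104 (ι := ι) h12) :=
  siteEv Tile.east Tile.west Tile.north Tile.south h12 (-v) (Finset.univ.filter fun τ => τ ∈ A)

theorem qwt_isQWT : QWT (CPBA.one : Event (flo104 (ι := ι) h12)) (qwt h12) where
  obs v := by
    classical
    refine ⟨fun s t => ?_, ?_, fun s t => ?_, fun s => ?_⟩
    · exact ⟨_, _, siteEv_splits h12 (-v) _ _⟩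
    · show siteEv _ _ _ _ h12 (-v) _ = Event.const
      rw [← siteEv_univ h12 (-v)]
      congr 1
      ext τ; simp
    · show siteEv _ _ _ _ h12 (-v) _ = (siteEv _ _ _ _ h12 (-v) _).meet
        (siteEv _ _ _ _ h12 (-v) _)
      rw [siteEv_meet]
      congr 1
      ext τ; simp
    · show siteEv _ _ _ _ h12 (-v) _ = CPBA.inf CPBA.one (siteEv _ _ _ _ h12 (-v) _).compl
      rw [CPBA.inf_comm _ _ (CPBA.compat_one _), CPBA.inf_one, siteEv_compl]
      congr 1
      ext τ; simp
  east x y K := by
    classical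
    have h := siteEv_hor' (E := Tile.east) (W := Tile.west) (N := Tile.north) (S := Tile.south)
      (ι := ι) h12 (-(x + 1, y)) (Finset.univ.filter fun k => k ∈ K)
    have e : (-(x + 1, y) + (1, 0) : ℤ × ℤ) = -(x, y) := by ext <;> simp
    rw [e] at h
    simp only [Finset.mem_filter, Finset.mem_univ, true_and] at h
    exact h
  north x y K := by
    classical
    have h := siteEv_ver' (E := Tile.east) (W := Tile.west) (N := Tile.north) (S := Tile.south)
      (ι := ι) h12 (-(x, y + 1)) (Finset.univ.filter fun k => k ∈ K)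
    have e : (-(x, y + 1) + (0, 1) : ℤ × ℤ) = -(x, y) := by ext <;> simp
    rw [e] at h
    simp only [Finset.mem_filter, Finset.mem_univ, true_and] at h
    exact h

/-- All tile events are pairwise compatible. -/
theorem tileEv_compat (v : ℤ × ℤ) (s : Tile) (w : ℤ × ℤ) (t : Tile) :
    CPBA.compat (tileEv (E := Tile.east) (W := Tile.west) (N := Tile.north) (S := Tile.south)
      (ι := ι) h12 v s) (tileEv h12 w t) := by
  classical
  have h := (qwt_isQWT (ι := ι) h12).compat_all (-v) (-w) {s} {t}
  have e : ∀ (v : ℤ × ℤ) (s : Tile), qwt (ι := ι) h12 (-v) {s} = tileEv h12 v s := by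
    intro v s
    show siteEv _ _ _ _ h12 (- -v) _ = siteEv _ _ _ _ h12 v {s}
    rw [neg_neg]
    congr 1
    ext τ; simp
  rw [e, e] at h
  exact h

/-- Every valid tiling of the plane is locally a translate of `t`. -/
theorem lang104 (P : Z2 → Tile) (hP : H783.Valid Tile.east Tile.west Tile.north Tile.south P)
    (F : Finset Z2) : ∃ u, ∀ z ∈ F, P z = t (u + z) := by
  obtain ⟨m, hm⟩ : ∃ m : ℕ, ∀ z ∈ F, |z.1| ≤ m ∧ |z.2| ≤ m := by
    refine ⟨F.sup fun z => z.1.natAbs + z.2.natAbs, fun z hz => ?_⟩
    have h := Finset.le_sup (f := fun z : ℤ × ℤ => z.1.natAbs + z.2.natAbs) hz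
    have h' : z.1.natAbs + z.2.natAbs ≤ F.sup fun z => z.1.natAbs + z.2.natAbs := h
    constructor
    · rw [Int.abs_eq_natAbs]; exact_mod_cast (Nat.le_add_right _ _).trans h'
    · rw [Int.abs_eq_natAbs]; exact_mod_cast (Nat.le_add_left _ _).trans h'
  obtain ⟨M, hM⟩ := lang m
  obtain ⟨u, hu⟩ := hM P (fun x y _ _ _ => by simpa using hP.1 (x, y))
    (fun x y _ _ _ => by simpa using hP.2 (x, y))
  refine ⟨u, fun z hz => ?_⟩
  exact hu z.1 z.2 (hm z hz).1 (hm z hz).2

end Vale.Agent.P196.H783
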